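import Vale.Agent.P060.CoDegree

/-!
# P060: Hadwiger's conjecture when every vertex has few non-neighbours

If every vertex of a graph on `n` vertices has at most `D` non-neighbours and
`(n - ω) ^ 3 > 2 ^ 29 D ^ 4` (or `n - ω > 12 D (√D + 1)`), then `χ ≤ h`. If moreover `α ≤ 2`,
then `n ^ 3 > 2 ^ 32 D ^ 4` already gives a complete minor on half of the vertices.
-/

namespace Vale.Agent.Results.P060.SmallCoDegree

open Vale.Agent.P060

theorem result :
    ∀ (V : Type) [Fintype V] (G : SimpleGraph V) (D : ℕ),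
      (∀ v : V, Nat.card {w : V // w ≠ v ∧ ¬ G.Adj v w} ≤ D) →
      ((G.cliqueNum + 12 * D * (Nat.sqrt D + 1) < Fintype.card V ∨
          2 ^ 29 * D ^ 4 < (Fintype.card V - G.cliqueNum) ^ 3 ∨
          (∀ v : V, ∃ w, w ≠ v ∧ ¬ G.Adj v w) ∧
            ((D + 1) * (12 * D * (Nat.sqrt D + 1)) < Fintype.card V ∨
              2 ^ 29 * D ^ 4 * (D + 1) ^ 3 < Fintype.card V ^ 3)) →
        ∃ t : ℕ, G.Colorable t ∧ HasCliqueMinor G t) ∧
      (G.indepNum ≤ 2 →
        24 * D * (Nat.sqrt D + 1) < Fintype.card V ∨ 2 ^ 32 * D ^ 4 < Fintype.card V ^ 3 →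
        HasCliqueMinor G ((Fintype.card V + 1) / 2)) := by
  intro V _ G D hD
  classical
  refine ⟨fun h => hadwiger_coDegree G D hD ?_, half_minor_of_indepNum_le_two G D hD⟩
  rcases h with h | h | ⟨hdom, hn⟩
  · exact Or.inl h
  · exact Or.inr h
  · have h1 := card_le_mul_sub_cliqueNum G D hD hdom
    rcases hn with hn | hn
    · have h2 := Nat.lt_of_mul_lt_mul_left (hn.trans_le h1)
      exact Or.inl (by omega)
    · refine Or.inr (Nat.lt_of_mul_lt_mul_left (a := (D + 1) ^ 3) ?_)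
      calc (D + 1) ^ 3 * (2 ^ 29 * D ^ 4) = 2 ^ 29 * D ^ 4 * (D + 1) ^ 3 := by ring
        _ < Fintype.card V ^ 3 := hn
        _ ≤ ((D + 1) * (Fintype.card V - G.cliqueNum)) ^ 3 := Nat.pow_le_pow_left h1 3
        _ = _ := mul_pow _ _ _

end Vale.Agent.Results.P060.SmallCoDegree
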